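import Vale.Agent.P342h37.Dom

namespace Vale.Agent.Results.P342.MinDegree

open Vale.Agent.P342h37 Finset

/-- 3-colorable graphs with minimum degree at least δ: greedy total domination with t steps,
t > (n / δ) log n, and arbitrary 2-colorings of the neighbourhoods give a proper coloring with
at most 2 t colors. -/
theorem result : ∀ (V : Type) [Fintype V] [DecidableEq V] (G : SimpleGraph V)
    [DecidableRel G.Adj] (δ : ℕ), G.Colorable 3 → (∀ v, δ ≤ G.degree v) →
    (∀ v, ∃ c : V → Bool, ∀ u w, G.Adj v u → G.Adj v w → G.Adj u w → c u ≠ c w) ∧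
    (Nonempty V → ∃ D : ℕ → Finset V, IsGreedy G D) ∧
    ∀ D : ℕ → Finset V, IsGreedy G D → ∀ t : ℕ,
      (Fintype.card V : ℝ) * Real.log (Fintype.card V) < δ * t →
      (D t).card ≤ t ∧ (∀ u, ∃ v ∈ D t, G.Adj v u) ∧
      ∀ (f : V → V) (c : V → V → Bool), (∀ u, f u ∈ D t ∧ G.Adj (f u) u) →
        (∀ v ∈ D t, ∀ u w, G.Adj v u → G.Adj v w → G.Adj u w → c v u ≠ c v w) →
        (∀ u w, G.Adj u w → (f u, c (f u) u) ≠ (f w, c (f w) w)) ∧
        (univ.image fun u => (f u, c (f u) u)).card ≤ 2 * t := by
  intro V _ _ G _ δ hcol hδ
  refine ⟨fun v => ?_, fun _ => exists_greedy G, fun D hD t ht => ?_⟩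
  · obtain ⟨C⟩ := hcol
    refine ⟨fun u => decide (C u = C v + 1), fun u w hu hw huw heq => ?_⟩
    have h1 := C.valid hu
    have h2 := C.valid hw
    have h3 := C.valid huw
    rw [decide_eq_decide] at heq
    revert h1 h2 h3 heq
    generalize C u = a
    generalize C w = b
    generalize C v = e
    revert a b e
    decide
  · have hcard : ∀ t, (D t).card ≤ t := by
      intro t
      induction t with
      | zero => rw [hD.1]; simp
      | succ t ih =>
        obtain ⟨v, h, _⟩ := hD.2 t
        rw [h]
        have := Finset.card_insert_le v (D t)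
        omega
    refine ⟨hcard t, ?_, ?_⟩
    · intro u
      have hn : 0 < Fintype.card V := Fintype.card_pos_iff.2 ⟨u⟩
      have hn' : (0 : ℝ) < Fintype.card V := by exact_mod_cast hn
      have h1 := undom_bound G δ hδ hn D hD t
      have h2 : (Fintype.card V : ℝ) * Real.exp (-(δ * t / Fintype.card V)) < 1 := by
        have h3 : -((δ : ℝ) * t / Fintype.card V) < -Real.log (Fintype.card V) := by
          apply neg_lt_neg
          rw [lt_div_iff₀ hn']
          linarith
        have h4 := Real.exp_lt_exp.2 h3
        rw [Real.exp_neg (Real.log _), Real.exp_log hn'] at h4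
        have h5 := mul_lt_mul_of_pos_left h4 hn'
        rw [mul_inv_cancel₀ hn'.ne'] at h5
        exact h5
      have h6 : ((undom G (D t)).card : ℝ) < 1 := lt_of_le_of_lt h1 h2
      have h7 : (undom G (D t)).card = 0 := by
        have : (undom G (D t)).card < 1 := by exact_mod_cast h6
        omega
      rw [Finset.card_eq_zero] at h7
      by_contra hcon
      push Not at hcon
      have : u ∈ undom G (D t) := by
        simp only [undom, mem_filter, mem_univ, true_and]
        exact hcon
      rw [h7] at this
      simp at this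
    · intro f c hf hc
      refine ⟨fun u w huw heq => ?_, ?_⟩
      · have h1 : f u = f w := (Prod.ext_iff.1 heq).1
        have h2 : c (f u) u = c (f w) w := (Prod.ext_iff.1 heq).2
        have h3 := (hf w).2
        rw [← h1] at h3 h2
        exact hc (f u) (hf u).1 u w (hf u).2 h3 huw h2
      · have hsub : (univ.image fun u => (f u, c (f u) u)) ⊆ D t ×ˢ (univ : Finset Bool) := by
          intro p hp
          obtain ⟨u, _, rfl⟩ := Finset.mem_image.1 hp
          exact Finset.mem_product.2 ⟨(hf u).1, mem_univ _⟩
        have h1 := Finset.card_le_card hsub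
        rw [Finset.card_product] at h1
        have h2 := hcard t
        simp only [Finset.card_univ, Fintype.card_bool] at h1
        omega

end Vale.Agent.Results.P342.MinDegree
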